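import Vale.Agent.Lib.P348.Close

/-!
# P348, question Q1: the Haldane gap of the spin-one Heisenberg ring is positive
-/

namespace Vale.Agent.Results.P348.HaldaneGap

open _root_.P348.Problem

/-- Haldane's conjecture for spin one: for every triple of self-adjoint spin-one matrices, the gap of the
antiferromagnetic Heisenberg Hamiltonian on the periodic ring of even length `L ≥ 4` above the ground energy
is bounded below by a positive constant uniformly in `L`, and `Δ_1 > 0`. -/
theorem result :
    (∃ S : Fin 3 → Matrix (Fin 3) (Fin 3) ℂ, IsSpinOne S) ∧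
    ∀ S : Fin 3 → Matrix (Fin 3) (Fin 3) ℂ, IsSpinOne S →
      (∀ L : ℕ, Even L → 4 ≤ L → IsLeast (eigs (heis S L)) (energy0 S L) ∧
        IsLeast {x ∈ eigs (heis S L) | energy0 S L < x} (energy1 S L)) ∧
      (∃ c : ℝ, 0 < c ∧ ∀ L : ℕ, Even L → 4 ≤ L → c ≤ gap S L) ∧
      0 < haldaneGap S :=
  ⟨⟨cart, cart_isSpinOne⟩, fun _ hS => haldane_of _root_.P348.uniformGap hS⟩

end Vale.Agent.Results.P348.HaldaneGap
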