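import Vale.Agent.Lib.P348.CloseX

/-!
# P348, question Q1: the Haldane gap of the spin-one Heisenberg ring, with an explicit constant
-/

namespace Vale.Agent.Results.P348.HaldaneGapExplicit

open _root_.P348.Problem

/-- Haldane's conjecture for spin one with an explicit constant: for every triple of self-adjoint spin-one
matrices, the gap of the antiferromagnetic Heisenberg Hamiltonian on the periodic ring of even length `L`
is at least `1/50` for `L ≥ 192`, is bounded below by a positive constant uniformly in even `L ≥ 4`, and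
`Δ_1 ≥ 1/50 > 0`. -/
theorem result :
    (∃ S : Fin 3 → Matrix (Fin 3) (Fin 3) ℂ, IsSpinOne S) ∧
    ∀ S : Fin 3 → Matrix (Fin 3) (Fin 3) ℂ, IsSpinOne S →
      (∀ L : ℕ, Even L → 4 ≤ L → IsLeast (eigs (heis S L)) (energy0 S L) ∧
        IsLeast {x ∈ eigs (heis S L) | energy0 S L < x} (energy1 S L)) ∧
      (∃ c : ℝ, 0 < c ∧ ∀ L : ℕ, Even L → 4 ≤ L → energy0 S L + c ≤ energy1 S L) ∧
      (∀ L : ℕ, Even L → 192 ≤ L → energy0 S L + 1 / 50 ≤ energy1 S L) ∧
      ((1 / 50 : ℝ) : EReal) ≤ haldaneGap S ∧ 0 < haldaneGap S := by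
  refine ⟨⟨cart, cart_isSpinOne⟩, fun S hS => ?_⟩
  obtain ⟨h1, ⟨c, hc, h2⟩, h3⟩ := haldane_of _root_.P348.uniformGap hS
  obtain ⟨h4, h5⟩ := _root_.P348.explicitGap hS
  refine ⟨h1, ⟨c, hc, fun L he hL => ?_⟩, fun L he hL => ?_, h5, h3⟩
  · have h := h2 L he hL
    rw [gap] at h
    linarith
  · have h := h4 L he hL
    rw [gap] at h
    linarith

end Vale.Agent.Results.P348.HaldaneGapExplicit
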