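import Vale.Agent.Lib.P348.Second

/-!
# P348, question Q1, second formulation: sites `ℤ/L`, operators on the tensor power `(ℂ³)^{⊗L}`
-/

namespace Vale.Agent.Results.P348.SpinOneRing

open _root_.P348.Ring

/-- Haldane's conjecture for spin one. For every triple of self-adjoint spin-one matrices: for even `L ≥ 4`
all eigenvalues of `H_L` are real and there are a least eigenvalue and a next distinct one; their
difference is bounded below by one positive constant for all even `L ≥ 4`; and the inferior limit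
of these differences `γ_L` along the even lengths `L = 2k` is positive. -/
theorem result :
    (∃ S : Fin 3 → Matrix (Fin 3) (Fin 3) ℂ, SpinOneTriple S) ∧
    ∀ S : Fin 3 → Matrix (Fin 3) (Fin 3) ℂ, SpinOneTriple S →
      (∀ L : ℕ, Even L → 4 ≤ L →
        (∀ z : ℂ, (hamiltonian S L).HasEigenvalue z → z.im = 0) ∧
          ∃ E₀ E₁ : ℝ, LowestTwo S L E₀ E₁) ∧
      (∃ c : ℝ, 0 < c ∧ ∀ L : ℕ, Even L → 4 ≤ L →
        ∀ E₀ E₁ : ℝ, LowestTwo S L E₀ E₁ → c ≤ E₁ - E₀) ∧
      (∀ γ : ℕ → ℝ,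
        (∀ L : ℕ, Even L → 4 ≤ L → ∃ E₀ E₁ : ℝ, LowestTwo S L E₀ E₁ ∧ γ L = E₁ - E₀) →
          0 < Filter.liminf (fun k : ℕ => ((γ (2 * k) : ℝ) : EReal)) Filter.atTop) := by
  refine ⟨⟨_root_.P348.Problem.cart, spinOneTriple_of _root_.P348.Problem.cart_isSpinOne⟩,
    fun S hS => ⟨fun L hL h4 => ⟨fun z hz => ?_, _, _, lowestTwo hS hL h4⟩, ?_, ?_⟩⟩
  · exact eigenvalue_real hS.isHermitian (by omega) hz
  · obtain ⟨c, hc, h⟩ :=
      (_root_.P348.Problem.haldane_of _root_.P348.uniformGap (isSpinOne hS)).2.1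
    refine ⟨c, hc, fun L hL h4 E₀ E₁ hE => ?_⟩
    rw [gap_eq hS hL h4 hE]
    exact h L hL h4
  · intro γ hγ
    refine liminf_pos hS fun L hL h4 => ?_
    obtain ⟨E₀, E₁, hE, h⟩ := hγ L hL h4
    rw [h, gap_eq hS hL h4 hE]

end Vale.Agent.Results.P348.SpinOneRing
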